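import Vale.Agent.P305.H529.Norm

/-! Moving finitely many points of a plane into general position. -/

set_option autoImplicit false

namespace Vale.Agent.P305.H529

open Module

variable {E : Type} [NormedAddCommGroup E] [NormedSpace ℝ E]

theorem isOpen_gp [FiniteDimensional ℝ E] {ι : Type} (f g : E →ₗ[ℝ] ℝ) (i j k : ι) :
    IsOpen {P : ι → E | ori f g (P i) (P j) (P k) ≠ 0} := by
  have hf : Continuous f := f.continuous_of_finiteDimensional
  have hg : Continuous g := g.continuous_of_finiteDimensional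
  refine isOpen_ne_fun ?_ continuous_const
  unfold ori
  fun_prop

theorem dense_gp {ι : Type} [Fintype ι] (b : Basis (Fin 2) ℝ E) (i j k : ι) (hij : i ≠ j)
    (hjk : j ≠ k) (hik : i ≠ k) :
    Dense {P : ι → E | ori (b.coord 0) (b.coord 1) (P i) (P j) (P k) ≠ 0} := by
  classical
  rw [Metric.dense_iff]
  intro P ε hε
  obtain ⟨f, hf⟩ : ∃ f, f = b.coord 0 := ⟨_, rfl⟩
  obtain ⟨g, hg⟩ : ∃ g, g = b.coord 1 := ⟨_, rfl⟩
  have f0 : f (b 0) = 1 := by simp [hf]
  have f1 : f (b 1) = 0 := by simp [hf]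
  have g0 : g (b 0) = 0 := by simp [hg]
  have g1 : g (b 1) = 1 := by simp [hg]
  rw [← hf, ← hg]
  let Q : ℝ → ι → E := fun τ l => P l + if l = j then τ • b 0 else if l = k then τ • b 1 else 0
  have hQ : ∀ τ, ori f g (Q τ i) (Q τ j) (Q τ k) =
      τ ^ 2 + ((f (P j) - f (P i)) + (g (P k) - g (P i))) * τ + ori f g (P i) (P j) (P k) := by
    intro τ
    simp only [Q, if_neg hij, if_neg hik, if_neg hjk.symm, if_true, add_zero, ori, map_add,
      map_smul, smul_eq_mul, f0, f1, g0, g1]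
    ring
  have hD : ∀ τ, |τ| * (‖b 0‖ + ‖b 1‖) < ε → Q τ ∈ Metric.ball P ε := by
    intro τ hτ
    rw [Metric.mem_ball, dist_pi_lt_iff hε]
    intro l
    rw [dist_eq_norm]
    simp only [Q, add_sub_cancel_left]
    have h0 := mul_nonneg (abs_nonneg τ) (norm_nonneg (b 0))
    have h1 := mul_nonneg (abs_nonneg τ) (norm_nonneg (b 1))
    split_ifs
    · rw [norm_smul, Real.norm_eq_abs]; linarith
    · rw [norm_smul, Real.norm_eq_abs]; linarith
    · simpa using hε
  set N := ‖b 0‖ + ‖b 1‖ with hN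
  have hN0 : 0 ≤ N := by positivity
  set τ := ε / (N + 1) with hτ
  have hτ0 : 0 < τ := by positivity
  have hτN : τ * N < ε := by
    rw [hτ, div_mul_eq_mul_div, div_lt_iff₀ (by positivity)]
    nlinarith
  have sm : ∀ c : ℝ, 0 < c → c ≤ 1 → |c * τ| * N < ε := by
    intro c hc hc1
    rw [abs_of_pos (by positivity)]
    have : c * τ ≤ τ := by nlinarith
    nlinarith
  by_contra hcon
  have all : ∀ c : ℝ, 0 < c → c ≤ 1 → ori f g (Q (c * τ) i) (Q (c * τ) j) (Q (c * τ) k) = 0 := by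
    intro c hc hc1
    by_contra hne
    exact hcon ⟨Q (c * τ), hD _ (sm c hc hc1), hne⟩
  have a1 := all 1 one_pos le_rfl
  have a2 := all (1 / 2) (by norm_num) (by norm_num)
  have a3 := all (1 / 3) (by norm_num) (by norm_num)
  rw [hQ] at a1 a2 a3
  have : τ ^ 2 = 0 := by linear_combination 3 * a1 - 12 * a2 + 9 * a3
  have : 0 < τ ^ 2 := by positivity
  linarith

theorem exists_gp {ι : Type} [Fintype ι] (b : Basis (Fin 2) ℝ E) (c : ι → E) (U : Set (ι → E))
    (hU : IsOpen U) (hc : c ∈ U) :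
    ∃ P ∈ U, ∀ i j k, i ≠ j → j ≠ k → i ≠ k →
      ori (b.coord 0) (b.coord 1) (P i) (P j) (P k) ≠ 0 := by
  classical
  have : FiniteDimensional ℝ E := b.finiteDimensional_of_finite
  have : CompleteSpace E := FiniteDimensional.complete ℝ E
  have hd : Dense (⋂ t : {t : ι × ι × ι // t.1 ≠ t.2.1 ∧ t.2.1 ≠ t.2.2 ∧ t.1 ≠ t.2.2},
      {P : ι → E | ori (b.coord 0) (b.coord 1) (P t.1.1) (P t.1.2.1) (P t.1.2.2) ≠ 0}) := by
    refine dense_iInter_of_isOpen (fun t => isOpen_gp _ _ _ _ _) (fun t => ?_)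
    exact dense_gp b _ _ _ t.2.1 t.2.2.1 t.2.2.2
  obtain ⟨P, hP, hPU⟩ := hd.inter_open_nonempty U hU ⟨c, hc⟩
  refine ⟨P, hP, fun i j k hij hjk hik => ?_⟩
  rw [Set.mem_iInter] at hPU
  exact hPU ⟨(i, j, k), hij, hjk, hik⟩

end Vale.Agent.P305.H529
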