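import Vale.Agent.P305.H529.Defs
import Vale.Agent.P305.H529.Perturb
import Mathlib.Combinatorics.SimpleGraph.Coloring.Constructions
import Mathlib.Analysis.Normed.Module.Ball.Pointwise

/-! The complement of a disk graph has no two odd cycles which are vertex-disjoint and
non-adjacent. -/

set_option autoImplicit false

namespace Vale.Agent.P305.H529

open Module

theorem exists_odd_walk {V : Type} (G : SimpleGraph V) (S : Set V)
    (h : ¬ (G.induce S).IsBipartite) : ∃ (s : ℕ) (a : ℕ → V), Odd s ∧ a s = a 0 ∧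
      (∀ i, a i ∈ S) ∧ ∀ i, i < s → G.Adj (a i) (a (i + 1)) := by
  rw [SimpleGraph.IsBipartite, SimpleGraph.two_colorable_iff_forall_loop_even] at h
  push Not at h
  obtain ⟨u, w, hw⟩ := h
  refine ⟨w.length, fun i => (w.getVert i : V), Nat.not_even_iff_odd.1 hw, ?_, ?_, ?_⟩
  · simp
  · intro i; exact (w.getVert i).2
  · intro i hi
    have := w.adj_getVert_succ hi
    simpa using this

theorem codisk_pair {V : Type} [Fintype V] (G : SimpleGraph V) (hG : IsCoDisk G) (S T : Set V)
    (hST : ∀ u ∈ S, ∀ v ∈ T, u ≠ v ∧ ¬ G.Adj u v) (hS : ¬ (G.induce S).IsBipartite)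
    (hT : ¬ (G.induce T).IsBipartite) : False := by
  obtain ⟨E, _, _, c, r, hE, hr, hadj⟩ := hG
  obtain ⟨s, a, hs, has, haS, haadj⟩ := exists_odd_walk G S hS
  obtain ⟨t, b, ht, hbt, hbT, hbadj⟩ := exists_odd_walk G T hT
  have : FiniteDimensional ℝ E := FiniteDimensional.of_finrank_eq_succ (n := 1) hE
  let B : Basis (Fin 2) ℝ E := finBasisOfFinrankEq ℝ E hE
  have far : ∀ u v, G.Adj u v → r u + r v < dist (c u) (c v) := fun u v h =>
    (disjoint_closedBall_closedBall_iff (hr u) (hr v)).1 ((hadj u v h.ne).1 h)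
  have near : ∀ u v, u ≠ v → ¬ G.Adj u v → dist (c u) (c v) ≤ r u + r v := by
    intro u v huv h
    by_contra hn
    exact h ((hadj u v huv).2 ((disjoint_closedBall_closedBall_iff (hr u) (hr v)).2
      (not_le.1 hn)))
  let c' : Option V → E := fun o => o.elim 0 c
  let U : Set (Option V → E) := {P | ∀ u u' v v' : V, G.Adj u u' → G.Adj v v' →
    (u ≠ v ∧ ¬ G.Adj u v) → (u' ≠ v' ∧ ¬ G.Adj u' v') →
    dist (P (some u)) (P (some v)) + dist (P (some u')) (P (some v')) <
      dist (P (some u)) (P (some u')) + dist (P (some v)) (P (some v'))}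
  have hU : IsOpen U := by
    simp only [U, Set.setOf_forall]
    refine isOpen_iInter_of_finite fun u => isOpen_iInter_of_finite fun u' =>
      isOpen_iInter_of_finite fun v => isOpen_iInter_of_finite fun v' =>
      isOpen_iInter_of_finite fun _ => isOpen_iInter_of_finite fun _ =>
      isOpen_iInter_of_finite fun _ => isOpen_iInter_of_finite fun _ => ?_
    exact isOpen_lt (by fun_prop) (by fun_prop)
  have hc : c' ∈ U := by
    intro u u' v v' h1 h2 h3 h4
    have e1 := far u u' h1
    have e2 := far v v' h2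
    have e3 := near u v h3.1 h3.2
    have e4 := near u' v' h4.1 h4.2
    simp only [c', Option.elim]
    linarith
  obtain ⟨P, hPU, hP⟩ := exists_gp B c' U hU hc
  refine not_odd (B.coord 0) (B.coord 1) P hP (fun i => some (a i)) (fun j => some (b j))
    (by simp only [has]) (by simp only [hbt]) none (fun i => by simp) (fun i => by simp)
    (fun i hi => by simpa using (haadj i hi).ne) (fun j hj => by simpa using (hbadj j hj).ne)
    (fun i j => by simpa using (hST _ (haS i) _ (hbT j)).1) ?_ ⟨hs, ht⟩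
  intro i j hi hj hsep
  have hfg : ∀ x, B.coord 0 x = 0 → B.coord 1 x = 0 → x = 0 := by
    intro x h0 h1
    refine B.forall_coord_eq_zero_iff.1 fun k => ?_
    fin_cases k
    · exact h0
    · exact h1
  have ha1 := haadj i hi
  have hb1 := hbadj j hj
  have n1 := hST _ (haS i) _ (hbT j)
  have n2 := hST _ (haS (i + 1)) _ (hbT j)
  have n3 := hST _ (haS i) _ (hbT (j + 1))
  have n4 := hST _ (haS (i + 1)) _ (hbT (j + 1))
  have so : ∀ {x y : V}, x ≠ y → (some x : Option V) ≠ some y := fun h => by simpa using h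
  have q := quad (B.coord 0) (B.coord 1) hfg (P (some (a i))) (P (some (a (i + 1))))
    (P (some (b j))) (P (some (b (j + 1))))
    (hP _ _ _ (so ha1.ne) (so n2.1) (so n1.1)) (hP _ _ _ (so ha1.ne) (so n4.1) (so n3.1))
    (hP _ _ _ (so hb1.ne) (so n3.1.symm) (so n1.1.symm))
    (hP _ _ _ (so hb1.ne) (so n4.1.symm) (so n2.1.symm)) hsep.1 hsep.2
  have u1 := hPU (a i) (a (i + 1)) (b j) (b (j + 1)) ha1 hb1 n1 n4
  have u2 := hPU (a i) (a (i + 1)) (b (j + 1)) (b j) ha1 hb1.symm n3 n2
  rw [dist_comm (P (some (b (j + 1)))) (P (some (b j)))] at u2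
  rcases q with q | q <;> linarith

end Vale.Agent.P305.H529
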