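import Vale.Agent.P305.OddDefs
import Mathlib.Analysis.Normed.Module.FiniteDimension

/-! Complements of disk graphs. -/

set_option autoImplicit false

namespace Vale.Agent.P305.H529

/-- `G` is the complement of a disk graph: for some norm on a plane (for example the Euclidean
norm, or the maximum norm) there are closed disks, one for every vertex, of arbitrary radii
`≥ 0`, such that two different vertices are adjacent in `G` iff their disks are disjoint. -/
def IsCoDisk {V : Type} (G : SimpleGraph V) : Prop :=
  ∃ (E : Type) (_ : NormedAddCommGroup E) (_ : NormedSpace ℝ E) (c : V → E) (r : V → ℝ),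
    Module.finrank ℝ E = 2 ∧ (∀ v, 0 ≤ r v) ∧ ∀ u v, u ≠ v →
      (G.Adj u v ↔ Disjoint (Metric.closedBall (c u) (r u)) (Metric.closedBall (c v) (r v)))

end Vale.Agent.P305.H529
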