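import Vale.Agent.P305.H529.Sign

/-! Closed walks in general position in a plane: parity of crossings. -/

set_option autoImplicit false

namespace Vale.Agent.P305.H529

open Finset

variable {E : Type} [AddCommGroup E] [Module ℝ E]

/-- Orientation of a triple of points, in the coordinates `f`, `g`. -/
def ori (f g : E →ₗ[ℝ] ℝ) (p q x : E) : ℝ := (f q - f p) * (g x - g p) - (g q - g p) * (f x - f p)

theorem ori_swap (f g : E →ₗ[ℝ] ℝ) (p q x : E) : ori f g q p x = -ori f g p q x := by
  simp only [ori]; ring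

theorem ori_cyc (f g : E →ₗ[ℝ] ℝ) (p q x : E) : ori f g q x p = ori f g p q x := by
  simp only [ori]; ring

/-- The bit of an orientation. -/
noncomputable def sg (f g : E →ₗ[ℝ] ℝ) (p q x : E) : Bool := pos (ori f g p q x)

theorem sg_swap (f g : E →ₗ[ℝ] ℝ) {p q x : E} (h : ori f g p q x ≠ 0) :
    sg f g q p x = !sg f g p q x := by
  rw [sg, sg, ori_swap, pos_neg h]

/-- Do the segments `x y` and `p q` cross? -/
noncomputable def crs (f g : E →ₗ[ℝ] ℝ) (x y p q : E) : Bool :=
  (sg f g p q x != sg f g p q y) && (sg f g x y p != sg f g x y q)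

/-- Is `x` inside the triangle `p q r`? -/
noncomputable def ins (f g : E →ₗ[ℝ] ℝ) (p q r x : E) : Bool :=
  (sg f g p q x == sg f g q r x) && (sg f g q r x == sg f g r p x)

theorem crs_swap (f g : E →ₗ[ℝ] ℝ) {x y p q : E} (h1 : ori f g p q x ≠ 0)
    (h2 : ori f g p q y ≠ 0) : crs f g x y q p = crs f g x y p q := by
  simp only [crs, sg_swap f g h1, sg_swap f g h2]
  cases sg f g p q x <;> cases sg f g p q y <;> cases sg f g x y p <;> cases sg f g x y q <;> rfl

/-- A segment crosses the boundary of a triangle an odd number of times iff exactly one of its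
ends is inside. -/
theorem triangle (f g : E →ₗ[ℝ] ℝ) (x y p q r : E) (hD : ori f g p q r ≠ 0)
    (hX1 : ori f g p q x ≠ 0) (hX2 : ori f g q r x ≠ 0) (hX3 : ori f g r p x ≠ 0)
    (hY1 : ori f g p q y ≠ 0) (hY2 : ori f g q r y ≠ 0) (hY3 : ori f g r p y ≠ 0)
    (hZ1 : ori f g x y p ≠ 0) (hZ2 : ori f g x y q ≠ 0) (hZ3 : ori f g x y r ≠ 0) :
    xor (xor (crs f g x y p q) (crs f g x y q r)) (crs f g x y r p) =
      xor (ins f g p q r x) (ins f g p q r y) := by
  refine bool_core (sg f g p q r) (sg f g p q x) (sg f g q r x) (sg f g r p x) (sg f g p q y)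
    (sg f g q r y) (sg f g r p y) (sg f g x y p) (sg f g x y q) (sg f g x y r) ?_ ?_ ?_ ?_ ?_ ?_ ?_
  · exact four hX1 hX2 hX3 hD (by simp only [ori]; ring)
  · exact four hY1 hY2 hY3 hD (by simp only [ori]; ring)
  · have := three (x := ori f g q r x * ori f g x y p) (y := ori f g r p x * ori f g x y q)
      (z := ori f g p q x * ori f g x y r) (mul_ne_zero hX2 hZ1) (mul_ne_zero hX3 hZ2)
      (mul_ne_zero hX1 hZ3) (by simp only [ori]; ring)
    rwa [pos_mul hX2 hZ1, pos_mul hX3 hZ2, pos_mul hX1 hZ3] at this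
  · have := three (x := ori f g q r y * ori f g x y p) (y := ori f g r p y * ori f g x y q)
      (z := ori f g p q y * ori f g x y r) (mul_ne_zero hY2 hZ1) (mul_ne_zero hY3 hZ2)
      (mul_ne_zero hY1 hZ3) (by simp only [ori]; ring)
    rwa [pos_mul hY2 hZ1, pos_mul hY3 hZ2, pos_mul hY1 hZ3] at this
  · have := three (x := ori f g x y p * ori f g p q r) (y := ori f g p q x * ori f g r p y)
      (z := -(ori f g r p x * ori f g p q y)) (mul_ne_zero hZ1 hD) (mul_ne_zero hX1 hY3)
      (neg_ne_zero.2 (mul_ne_zero hX3 hY1)) (by simp only [ori]; ring)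
    rwa [pos_mul hZ1 hD, pos_mul hX1 hY3, pos_neg (mul_ne_zero hX3 hY1), pos_mul hX3 hY1] at this
  · have := three (x := ori f g x y q * ori f g p q r) (y := ori f g q r x * ori f g p q y)
      (z := -(ori f g p q x * ori f g q r y)) (mul_ne_zero hZ2 hD) (mul_ne_zero hX2 hY1)
      (neg_ne_zero.2 (mul_ne_zero hX1 hY2)) (by simp only [ori]; ring)
    rwa [pos_mul hZ2 hD, pos_mul hX2 hY1, pos_neg (mul_ne_zero hX1 hY2), pos_mul hX1 hY2] at this
  · have := three (x := ori f g x y r * ori f g p q r) (y := ori f g r p x * ori f g q r y)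
      (z := -(ori f g q r x * ori f g r p y)) (mul_ne_zero hZ3 hD) (mul_ne_zero hX3 hY2)
      (neg_ne_zero.2 (mul_ne_zero hX2 hY3)) (by simp only [ori]; ring)
    rwa [pos_mul hZ3 hD, pos_mul hX3 hY2, pos_neg (mul_ne_zero hX2 hY3), pos_mul hX2 hY3] at this

/-- A Boolean as an element of `ℤ/2`. -/
def bt (b : Bool) : ZMod 2 := if b then 1 else 0

theorem bt_xor (a b : Bool) : bt (xor a b) = bt a + bt b := by
  cases a <;> cases b <;> decide

theorem bt_and (a b : Bool) : bt (a && b) = bt a * bt b := by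
  cases a <;> cases b <;> decide

theorem bt_bne (a b : Bool) : bt (a != b) = bt a + bt b := by
  cases a <;> cases b <;> decide

theorem two_zero (a : ZMod 2) : a + a = 0 := by
  have : ∀ a : ZMod 2, a + a = 0 := by decide
  exact this a

/-- Telescoping in `ℤ/2`. -/
theorem tele (h : ℕ → ZMod 2) (s : ℕ) : ∑ i ∈ range s, (h i + h (i + 1)) = h 0 + h s := by
  induction s with
  | zero => simp [two_zero]
  | succ s ih =>
    rw [sum_range_succ, ih]
    have := two_zero (h s)
    linear_combination this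

theorem tele_closed (h : ℕ → ZMod 2) (s : ℕ) (hs : h s = h 0) :
    ∑ i ∈ range s, (h i + h (i + 1)) = 0 := by
  rw [tele, hs, two_zero]

section walks

variable {ι : Type} (f g : E →ₗ[ℝ] ℝ) (P : ι → E)
  (gp : ∀ i j k, i ≠ j → j ≠ k → i ≠ k → ori f g (P i) (P j) (P k) ≠ 0)

include gp

/-- The number of crossings of a closed walk with a segment depends only on the ends of the
segment, modulo two. -/
theorem walk_seg {s : ℕ} (a : ℕ → ι) (has : a s = a 0) (z u v : ι) (hz : ∀ i, a i ≠ z)
    (hza : ∀ i, i < s → a i ≠ a (i + 1)) (huz : u ≠ z) (hvz : v ≠ z) (huv : u ≠ v)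
    (hu : ∀ i, a i ≠ u) (hv : ∀ i, a i ≠ v) :
    ∑ i ∈ range s, bt (crs f g (P u) (P v) (P (a i)) (P (a (i + 1)))) =
      ∑ i ∈ range s, bt (ins f g (P z) (P (a i)) (P (a (i + 1))) (P u)) +
      ∑ i ∈ range s, bt (ins f g (P z) (P (a i)) (P (a (i + 1))) (P v)) := by
  have key : ∀ i ∈ range s, bt (crs f g (P u) (P v) (P (a i)) (P (a (i + 1)))) =
      (bt (ins f g (P z) (P (a i)) (P (a (i + 1))) (P u)) +
        bt (ins f g (P z) (P (a i)) (P (a (i + 1))) (P v))) +
      (bt (crs f g (P u) (P v) (P z) (P (a i))) +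
        bt (crs f g (P u) (P v) (P z) (P (a (i + 1))))) := by
    intro i hi
    rw [mem_range] at hi
    have h1 := hza i hi
    have h := triangle f g (P u) (P v) (P z) (P (a i)) (P (a (i + 1)))
      (gp _ _ _ (hz i).symm h1 (hz _).symm)
      (gp _ _ _ (hz i).symm (hu i) huz.symm) (gp _ _ _ h1 (hu _) (hu _))
      (gp _ _ _ (hz _) huz.symm (hu _))
      (gp _ _ _ (hz i).symm (hv i) hvz.symm) (gp _ _ _ h1 (hv _) (hv _))
      (gp _ _ _ (hz _) hvz.symm (hv _))
      (gp _ _ _ huv hvz huz) (gp _ _ _ huv (hv _).symm (hu _).symm)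
      (gp _ _ _ huv (hv _).symm (hu _).symm)
    have h2 := congrArg bt h
    rw [bt_xor, bt_xor, bt_xor, crs_swap f g (x := P u) (y := P v) (p := P z)
      (q := P (a (i + 1))) (gp _ _ _ (hz _).symm (hu _) huz.symm)
      (gp _ _ _ (hz _).symm (hv _) hvz.symm)] at h2
    rw [← h2]
    have e1 := two_zero (bt (crs f g (P u) (P v) (P z) (P (a i))))
    have e2 := two_zero (bt (crs f g (P u) (P v) (P z) (P (a (i + 1)))))
    linear_combination -e1 - e2
  rw [sum_congr rfl key, sum_add_distrib, sum_add_distrib,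
    tele_closed (fun i => bt (crs f g (P u) (P v) (P z) (P (a i)))) s (by simp only [has]),
    add_zero]

/-- Two closed walks of a plane in general position, every segment of the first one being related
to every segment of the second one by a separation, cannot both have odd length. -/
theorem not_odd {s t : ℕ} (a b : ℕ → ι) (has : a s = a 0) (hbt : b t = b 0) (z : ι)
    (hza : ∀ i, a i ≠ z) (hzb : ∀ i, b i ≠ z) (ha : ∀ i, i < s → a i ≠ a (i + 1))
    (hb : ∀ j, j < t → b j ≠ b (j + 1)) (hab : ∀ i j, a i ≠ b j)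
    (sep : ∀ i j, i < s → j < t →
      ¬ (sg f g (P (a i)) (P (a (i + 1))) (P (b j)) =
          sg f g (P (a i)) (P (a (i + 1))) (P (b (j + 1))) ∧
        sg f g (P (b j)) (P (b (j + 1))) (P (a i)) =
          sg f g (P (b j)) (P (b (j + 1))) (P (a (i + 1))))) :
    ¬ (Odd s ∧ Odd t) := by
  rintro ⟨hs, ht⟩
  set α : ℕ → ℕ → ZMod 2 := fun i j => bt (sg f g (P (a i)) (P (a (i + 1))) (P (b j))) +
    bt (sg f g (P (a i)) (P (a (i + 1))) (P (b (j + 1)))) with hα
  set β : ℕ → ℕ → ZMod 2 := fun i j => bt (sg f g (P (b j)) (P (b (j + 1))) (P (a i))) +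
    bt (sg f g (P (b j)) (P (b (j + 1))) (P (a (i + 1)))) with hβ
  have h1 : ∀ i ∈ range s, ∀ j ∈ range t, (1 : ZMod 2) = α i j + β i j + α i j * β i j := by
    intro i hi j hj
    rw [mem_range] at hi hj
    have := sep i j hi hj
    simp only [hα, hβ]
    revert this
    generalize sg f g (P (a i)) (P (a (i + 1))) (P (b j)) = x1
    generalize sg f g (P (a i)) (P (a (i + 1))) (P (b (j + 1))) = x2
    generalize sg f g (P (b j)) (P (b (j + 1))) (P (a i)) = x3
    generalize sg f g (P (b j)) (P (b (j + 1))) (P (a (i + 1))) = x4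
    revert x1 x2 x3 x4
    decide
  have h2 : ∑ i ∈ range s, ∑ j ∈ range t, (1 : ZMod 2) = 0 := by
    rw [sum_congr rfl fun i hi => sum_congr rfl fun j hj => h1 i hi j hj]
    simp only [sum_add_distrib]
    have A : ∀ i ∈ range s, ∑ j ∈ range t, α i j = 0 := fun i _ =>
      tele_closed (fun j => bt (sg f g (P (a i)) (P (a (i + 1))) (P (b j)))) t
        (by simp only [hbt])
    have B : ∑ i ∈ range s, ∑ j ∈ range t, β i j = 0 := by
      rw [sum_comm]
      exact sum_eq_zero fun j _ =>
        tele_closed (fun i => bt (sg f g (P (b j)) (P (b (j + 1))) (P (a i)))) s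
          (by simp only [has])
    have C : ∑ i ∈ range s, ∑ j ∈ range t, α i j * β i j = 0 := by
      rw [sum_comm]
      have : ∀ j ∈ range t, ∑ i ∈ range s, α i j * β i j =
          ∑ i ∈ range s, bt (ins f g (P z) (P (a i)) (P (a (i + 1))) (P (b j))) +
          ∑ i ∈ range s, bt (ins f g (P z) (P (a i)) (P (a (i + 1))) (P (b (j + 1)))) := by
        intro j hj
        rw [mem_range] at hj
        rw [← walk_seg f g P gp a has z (b j) (b (j + 1)) hza ha (hzb _) (hzb _) (hb j hj)
          (fun i => hab i _) (fun i => hab i _)]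
        refine sum_congr rfl fun i _ => ?_
        rw [crs, bt_and, bt_bne, bt_bne]
      rw [sum_congr rfl this]
      exact tele_closed (fun j => ∑ i ∈ range s,
        bt (ins f g (P z) (P (a i)) (P (a (i + 1))) (P (b j)))) t (by simp only [hbt])
    rw [sum_eq_zero A, B, C]
    ring
  rw [sum_const, sum_const, card_range, card_range, smul_smul, nsmul_eq_mul, mul_one] at h2
  have h3 : Odd (s * t) := hs.mul ht
  rw [ZMod.natCast_eq_zero_iff] at h2
  exact (Nat.not_even_iff_odd.2 h3) (even_iff_two_dvd.2 h2)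

end walks

end Vale.Agent.P305.H529
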