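import Vale.Agent.P305.H529.Pair
import Vale.Agent.P305.Bdl.B1
import Vale.Agent.P305.Bdl.B2

/-! The packing number and vertex deletions; complements of disk graphs. -/

set_option autoImplicit false

namespace Vale.Agent.P305.H529

theorem bip_transfer {V : Type} (G : SimpleGraph V) (X S : Set V) (h : S ⊆ Xᶜ)
    (hb : ((G.induce Xᶜ).induce {v : ↑Xᶜ | (v : V) ∈ S}).IsBipartite) :
    (G.induce S).IsBipartite := by
  obtain ⟨col⟩ := hb
  exact ⟨SimpleGraph.Coloring.mk (fun v => col ⟨⟨v.1, h v.2⟩, v.2⟩)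
    (fun {u v} huv => col.valid (by simpa using huv))⟩

theorem bip_of_subset {V : Type} (G : SimpleGraph V) (X S : Set V) (h : S ⊆ Xᶜ)
    (hb : (G.induce Xᶜ).IsBipartite) : (G.induce S).IsBipartite := by
  obtain ⟨col⟩ := hb
  exact ⟨SimpleGraph.Coloring.mk (fun v => col ⟨v.1, h v.2⟩)
    (fun {u v} huv => col.valid (by simpa using huv))⟩

theorem IsCoDisk.induce {V : Type} {G : SimpleGraph V} (h : IsCoDisk G) (S : Set V) :
    IsCoDisk (G.induce S) := by
  obtain ⟨E, i1, i2, c, r, hE, hr, hadj⟩ := h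
  refine ⟨E, i1, i2, fun v => c v, fun v => r v, hE, fun v => hr v, fun u v huv => ?_⟩
  exact hadj u v (fun h => huv (Subtype.ext h))

theorem oddPacking_le_add {n : ℕ} (G : SimpleGraph (Fin n)) (X : Set (Fin n)) (c : ℕ)
    (hc : ∀ (k : ℕ) (S : Fin k → Set (Fin n)), IsOddPacking G k S → (∀ i, S i ⊆ Xᶜ) → k ≤ c) :
    oddPacking G ≤ (G.induce X).indepNum + c := by
  classical
  refine oddPacking_le_of G fun k S hS => ?_
  let A : Finset (Fin k) := Finset.univ.filter fun i => (S i ∩ X).Nonempty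
  have hA : A.card ≤ (G.induce X).indepNum := by
    have h1 : ∀ i : A, ∃ v : X, v.1 ∈ S i := by
      rintro ⟨i, hi⟩
      obtain ⟨v, hv, hx⟩ := (Finset.mem_filter.1 hi).2
      exact ⟨⟨v, hx⟩, hv⟩
    choose f hf using h1
    have hinj : Function.Injective f := by
      intro i j hij
      by_contra hne
      exact (hS.2 i j (fun h => hne (Subtype.ext h)) (f i) (hf i) (f j) (hf j)).1
        (congrArg Subtype.val hij)
    have := Fintype.ofFinite X
    have hI : (G.induce X).IsIndepSet ((Finset.univ.image f : Finset X) : Set X) := by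
      intro u hu v hv huv
      simp only [Finset.coe_image, Finset.coe_univ, Set.image_univ, Set.mem_range] at hu hv
      obtain ⟨i, rfl⟩ := hu
      obtain ⟨j, rfl⟩ := hv
      have hij : (i : Fin k) ≠ j := fun h => huv (congrArg f (Subtype.ext h))
      intro hadj
      exact (hS.2 i j hij _ (hf i) _ (hf j)).2 hadj
    have h1 := hI.card_le_indepNum
    rwa [Finset.card_image_of_injective _ hinj, Finset.card_univ, Fintype.card_coe] at h1
  have hB : Aᶜ.card ≤ c := by
    let e := (Aᶜ).equivFin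
    refine hc Aᶜ.card (fun i => S (e.symm i)) ⟨fun i => hS.1 _, fun i j hij =>
      hS.2 _ _ (fun h => hij (e.symm.injective (Subtype.ext h)))⟩ ?_
    intro i v hv hx
    have h2 := (e.symm i).2
    rw [Finset.mem_compl] at h2
    exact h2 (Finset.mem_filter.2 ⟨Finset.mem_univ _, v, hv, hx⟩)
  have hcard := Finset.card_add_card_compl A
  rw [Fintype.card_fin] at hcard
  omega

/-- Deleting a set `X` so that a bipartite graph remains. -/
theorem oddPacking_le_bip {n : ℕ} (G : SimpleGraph (Fin n)) (X : Set (Fin n))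
    (hX : (G.induce Xᶜ).IsBipartite) : oddPacking G ≤ (G.induce X).indepNum := by
  refine oddPacking_le_add G X 0 fun k S hS hs => ?_
  by_contra hk
  exact hS.1 ⟨0, by omega⟩ (bip_of_subset G X _ (hs _) hX)

/-- Deleting a set `X` so that the complement of a disk graph remains. -/
theorem oddPacking_le_codisk {n : ℕ} (G : SimpleGraph (Fin n)) (X : Set (Fin n))
    (hX : IsCoDisk (G.induce Xᶜ)) : oddPacking G ≤ (G.induce X).indepNum + 1 := by
  classical
  refine oddPacking_le_add G X 1 fun k S hS hs => ?_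
  by_contra hk
  have h01 : (⟨0, by omega⟩ : Fin k) ≠ ⟨1, by omega⟩ := by simp
  have : Fintype ↑Xᶜ := Fintype.ofFinite _
  refine codisk_pair (G.induce Xᶜ) hX {v : ↑Xᶜ | (v : Fin n) ∈ S ⟨0, by omega⟩}
    {v : ↑Xᶜ | (v : Fin n) ∈ S ⟨1, by omega⟩} ?_
    (fun h => hS.1 ⟨0, by omega⟩ (bip_transfer G X _ (hs _) h))
    (fun h => hS.1 ⟨1, by omega⟩ (bip_transfer G X _ (hs _) h))
  intro u hu v hv
  have := hS.2 _ _ h01 u hu v hv
  exact ⟨fun h => this.1 (congrArg Subtype.val h), fun h => this.2 h⟩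

theorem oddPacking_codisk {n : ℕ} (G : SimpleGraph (Fin n)) (hG : IsCoDisk G) :
    oddPacking G ≤ 1 := by
  have h := oddPacking_le_codisk G ∅ (hG.induce _)
  have h0 : (G.induce (∅ : Set (Fin n))).indepNum = 0 := by
    have : Fintype ↑(∅ : Set (Fin n)) := Fintype.ofFinite _
    have := (G.induce (∅ : Set (Fin n))).exists_isNIndepSet_indepNum
    obtain ⟨s, hs⟩ := this
    rw [← hs.card_eq, Finset.card_eq_zero]
    exact Finset.eq_empty_of_isEmpty s
  omega

theorem codisk_reduction (T : ℕ → ℕ → ℕ)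
    (hT : ∀ n n' m m', n ≤ n' → m ≤ m' → T n m ≤ T n' m')
    (hP : ∃ P, Solves P (fun _ G => G.IsBipartite) (fun n G => T n G.edgeSet.ncard)) :
    ∃ P C, Solves P (fun _ G => IsCoDisk G) (fun n G =>
      C * (T (2 * n) (2 * G.edgeSet.ncard) +
        (Nat.log 2 n + 1) * (n + G.edgeSet.ncard + 1))) := by
  obtain ⟨P, C, h⟩ := odd_reduction T hT hP
  refine ⟨P, 2 * C, h.mono (fun _ _ _ => trivial) fun n G hG => ?_⟩
  have h1 := oddPacking_codisk G hG
  have h2 : (oddPacking G + 1) * ((Nat.log 2 n + 1) * (n + G.edgeSet.ncard + 1)) ≤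
      2 * ((Nat.log 2 n + 1) * (n + G.edgeSet.ncard + 1)) := Nat.mul_le_mul_right _ (by omega)
  calc C * (T (2 * n) (2 * G.edgeSet.ncard) +
        (oddPacking G + 1) * ((Nat.log 2 n + 1) * (n + G.edgeSet.ncard + 1)))
      ≤ C * (2 * (T (2 * n) (2 * G.edgeSet.ncard) +
        (Nat.log 2 n + 1) * (n + G.edgeSet.ncard + 1))) := Nat.mul_le_mul_left _ (by omega)
    _ = _ := by ring

theorem codisk_almostLinear (h : AlmostLinear fun _ G => G.IsBipartite) :
    AlmostLinear fun _ G => IsCoDisk G := by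
  obtain ⟨P, T, hP, hT⟩ := odd_almostLinear h (fun _ => 1) (by
    intro ε hε
    refine ⟨1, fun N => ?_⟩
    rw [one_mul, Nat.cast_one]
    exact Real.one_le_rpow (by linarith [(Nat.cast_nonneg N : (0 : ℝ) ≤ N)]) hε.le)
  exact ⟨P, T, hP.mono (fun _ G hG => oddPacking_codisk G hG) fun _ _ _ => le_rfl, hT⟩

theorem near_almostLinear (hB : AlmostLinear fun _ G => G.IsBipartite) (κ : ℕ → ℕ)
    (hκ : ∀ ε : ℝ, 0 < ε → ∃ c : ℝ, ∀ N : ℕ, (κ N : ℝ) ≤ c * ((N : ℝ) + 1) ^ ε) :
    AlmostLinear fun n G => ∃ X : Set (Fin n), (G.induce X).indepNum ≤ κ (n + G.edgeSet.ncard) ∧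
      ((G.induce Xᶜ).IsBipartite ∨ IsCoDisk (G.induce Xᶜ)) := by
  obtain ⟨P, T, hP, hT⟩ := odd_almostLinear hB (fun N => κ N + 1) (by
    intro ε hε
    obtain ⟨c, hc⟩ := hκ ε hε
    refine ⟨c + 1, fun N => ?_⟩
    have h1 : (1 : ℝ) ≤ ((N : ℝ) + 1) ^ ε :=
      Real.one_le_rpow (by linarith [(Nat.cast_nonneg N : (0 : ℝ) ≤ N)]) hε.le
    push_cast
    rw [add_mul, one_mul]
    exact add_le_add (hc N) h1)
  refine ⟨P, T, hP.mono ?_ fun _ _ _ => le_rfl, hT⟩
  rintro n G ⟨X, hX, h | h⟩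
  · exact (oddPacking_le_bip G X h).trans (hX.trans (Nat.le_succ _))
  · exact (oddPacking_le_codisk G X h).trans (Nat.succ_le_succ hX)

end Vale.Agent.P305.H529
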