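import Vale.Agent.P305.H529.Geo

/-! Two far pairs which are mutually close: one of the two lines separates the other pair. -/

set_option autoImplicit false

namespace Vale.Agent.P305.H529

open Finset

variable {E : Type} [NormedAddCommGroup E] [NormedSpace ℝ E]

theorem quad_aux (f g : E →ₗ[ℝ] ℝ) (hfg : ∀ x, f x = 0 → g x = 0 → x = 0) (p₁ p₂ q₁ q₂ : E)
    (hab : 0 < ori f g p₁ p₂ q₁ * ori f g p₁ p₂ q₂) (hcd : 0 < ori f g q₁ q₂ p₁ * ori f g q₁ q₂ p₂)
    (hac : 0 < ori f g p₁ p₂ q₁ * ori f g q₁ q₂ p₁) :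
    dist p₁ p₂ + dist q₁ q₂ ≤ dist p₁ q₁ + dist p₂ q₂ := by
  obtain ⟨a, ha⟩ : ∃ a, a = ori f g p₁ p₂ q₁ := ⟨_, rfl⟩
  obtain ⟨b, hb⟩ : ∃ b, b = ori f g p₁ p₂ q₂ := ⟨_, rfl⟩
  obtain ⟨c, hc⟩ : ∃ c, c = ori f g q₁ q₂ p₁ := ⟨_, rfl⟩
  obtain ⟨d, hd⟩ : ∃ d, d = ori f g q₁ q₂ p₂ := ⟨_, rfl⟩
  rw [← ha, ← hb] at hab
  rw [← hc, ← hd] at hcd
  rw [← ha, ← hc] at hac
  have hs : a + c = b + d := by rw [ha, hb, hc, hd]; simp only [ori]; ring
  have e1 : (a + c) • (p₁ - p₂) = b • (p₁ - q₁) + a • (q₂ - p₂) := by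
    rw [← sub_eq_zero]
    apply hfg
    · simp only [map_sub, map_add, map_smul, smul_eq_mul]
      rw [ha, hb, hc]; simp only [ori]; ring
    · simp only [map_sub, map_add, map_smul, smul_eq_mul]
      rw [ha, hb, hc]; simp only [ori]; ring
  have e2 : (a + c) • (q₁ - q₂) = c • (p₂ - q₂) + d • (q₁ - p₁) := by
    rw [← sub_eq_zero]
    apply hfg
    · simp only [map_sub, map_add, map_smul, smul_eq_mul]
      rw [ha, hc, hd]; simp only [ori]; ring
    · simp only [map_sub, map_add, map_smul, smul_eq_mul]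
      rw [ha, hc, hd]; simp only [ori]; ring
  have n1 : |a + c| * dist p₁ p₂ ≤ |b| * dist p₁ q₁ + |a| * dist p₂ q₂ := by
    have := norm_add_le (b • (p₁ - q₁)) (a • (q₂ - p₂))
    rw [← e1, norm_smul, norm_smul, norm_smul, Real.norm_eq_abs, Real.norm_eq_abs,
      Real.norm_eq_abs, ← dist_eq_norm, ← dist_eq_norm, ← dist_eq_norm, dist_comm q₂ p₂] at this
    exact this
  have n2 : |a + c| * dist q₁ q₂ ≤ |c| * dist p₂ q₂ + |d| * dist p₁ q₁ := by
    have := norm_add_le (c • (p₂ - q₂)) (d • (q₁ - p₁))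
    rw [← e2, norm_smul, norm_smul, norm_smul, Real.norm_eq_abs, Real.norm_eq_abs,
      Real.norm_eq_abs, ← dist_eq_norm, ← dist_eq_norm, ← dist_eq_norm, dist_comm q₁ p₁] at this
    exact this
  have habs : |a + c| = |a| + |c| ∧ |b + d| = |b| + |d| ∧ 0 < |a + c| := by
    rcases lt_trichotomy a 0 with h | h | h
    · have hb' : b < 0 := by by_contra hn; push Not at hn; nlinarith
      have hc' : c < 0 := by by_contra hn; push Not at hn; nlinarith
      have hd' : d < 0 := by by_contra hn; push Not at hn; nlinarith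
      refine ⟨?_, ?_, abs_pos.2 (by linarith)⟩
      · rw [abs_of_neg h, abs_of_neg hc', abs_of_neg (by linarith)]; ring
      · rw [abs_of_neg hb', abs_of_neg hd', abs_of_neg (by linarith)]; ring
    · rw [h] at hac; simp at hac
    · have hb' : 0 < b := by by_contra hn; push Not at hn; nlinarith
      have hc' : 0 < c := by by_contra hn; push Not at hn; nlinarith
      have hd' : 0 < d := by by_contra hn; push Not at hn; nlinarith
      refine ⟨?_, ?_, abs_pos.2 (by linarith)⟩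
      · rw [abs_of_pos h, abs_of_pos hc', abs_of_pos (by linarith)]
      · rw [abs_of_pos hb', abs_of_pos hd', abs_of_pos (by linarith)]
  obtain ⟨h1, h2, h3⟩ := habs
  rw [← hs] at h2
  have : |a + c| * (dist p₁ p₂ + dist q₁ q₂) ≤ |a + c| * (dist p₁ q₁ + dist p₂ q₂) := by
    have e : |a + c| * (dist p₁ q₁ + dist p₂ q₂) =
        (|b| + |d|) * dist p₁ q₁ + (|a| + |c|) * dist p₂ q₂ := by
      rw [← h1, ← h2]; ring
    rw [e]
    linarith
  exact le_of_mul_le_mul_left this h3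

/-- If neither of the lines `p₁ p₂`, `q₁ q₂` separates the other pair of points, then
`|p₁ p₂| + |q₁ q₂|` is at most one of the two cross sums. -/
theorem quad (f g : E →ₗ[ℝ] ℝ) (hfg : ∀ x, f x = 0 → g x = 0 → x = 0) (p₁ p₂ q₁ q₂ : E)
    (h1 : ori f g p₁ p₂ q₁ ≠ 0) (h2 : ori f g p₁ p₂ q₂ ≠ 0) (h3 : ori f g q₁ q₂ p₁ ≠ 0)
    (h4 : ori f g q₁ q₂ p₂ ≠ 0) (hab : sg f g p₁ p₂ q₁ = sg f g p₁ p₂ q₂)
    (hcd : sg f g q₁ q₂ p₁ = sg f g q₁ q₂ p₂) :
    dist p₁ p₂ + dist q₁ q₂ ≤ dist p₁ q₁ + dist p₂ q₂ ∨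
      dist p₁ p₂ + dist q₁ q₂ ≤ dist p₁ q₂ + dist p₂ q₁ := by
  have same : ∀ {x y : ℝ}, x ≠ 0 → y ≠ 0 → pos x = pos y → 0 < x * y := by
    intro x y hx hy h
    rw [← pos_iff, pos_mul hx hy, h]; simp
  have A := same h1 h2 hab
  have B := same h3 h4 hcd
  rcases lt_or_gt_of_ne (mul_ne_zero h1 h3) with h | h
  · right
    have h5 := quad_aux f g hfg p₁ p₂ q₂ q₁ (by rwa [mul_comm])
      (by rw [ori_swap f g q₁ q₂ p₁, ori_swap f g q₁ q₂ p₂]; simpa using B)
      (by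
        rw [ori_swap f g q₁ q₂ p₁]
        have : ori f g p₁ p₂ q₂ * ori f g q₁ q₂ p₁ < 0 := by
          by_contra hn
          push Not at hn
          have h6 : 0 < ori f g p₁ p₂ q₂ * ori f g q₁ q₂ p₁ :=
            lt_of_le_of_ne hn (mul_ne_zero h2 h3).symm
          have h7 : 0 < ori f g q₁ q₂ p₁ ^ 2 := by positivity
          nlinarith [mul_pos A h7]
        linarith)
    rwa [dist_comm q₂ q₁] at h5
  · left
    exact quad_aux f g hfg p₁ p₂ q₁ q₂ A B h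

end Vale.Agent.P305.H529
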