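import Mathlib.Analysis.Normed.Module.FiniteDimension
import Mathlib.Topology.Baire.CompleteMetrizable
import Mathlib.Topology.Baire.Lemmas
import Mathlib.Data.ZMod.Basic
import Mathlib.Tactic

/-! Orientations of triples of points of a plane and the parity of crossings. -/

set_option autoImplicit false

namespace Vale.Agent.P305.H529

/-- Is a real number positive? -/
noncomputable def pos (x : ℝ) : Bool := decide (0 < x)

theorem pos_iff (x : ℝ) : pos x = true ↔ 0 < x := by simp [pos]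

theorem pos_false {x : ℝ} (hx : x ≠ 0) : pos x = false ↔ x < 0 := by
  simp only [pos, decide_eq_false_iff_not, not_lt]
  exact ⟨fun h => lt_of_le_of_ne h hx, le_of_lt⟩

theorem pos_mul {x y : ℝ} (hx : x ≠ 0) (hy : y ≠ 0) : pos (x * y) = (pos x == pos y) := by
  rcases lt_or_gt_of_ne hx with h | h <;> rcases lt_or_gt_of_ne hy with h' | h'
  · rw [(pos_false hx).2 h, (pos_false hy).2 h', (pos_iff _).2 (mul_pos_of_neg_of_neg h h')]; rfl
  · rw [(pos_false hx).2 h, (pos_iff y).2 h', (pos_false (mul_ne_zero hx hy)).2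
      (mul_neg_of_neg_of_pos h h')]; rfl
  · rw [(pos_iff x).2 h, (pos_false hy).2 h', (pos_false (mul_ne_zero hx hy)).2
      (mul_neg_of_pos_of_neg h h')]; rfl
  · rw [(pos_iff x).2 h, (pos_iff y).2 h', (pos_iff _).2 (mul_pos h h')]; rfl

theorem pos_neg {x : ℝ} (hx : x ≠ 0) : pos (-x) = !pos x := by
  rcases lt_or_gt_of_ne hx with h | h
  · rw [(pos_false hx).2 h, (pos_iff _).2 (by linarith)]; rfl
  · rw [(pos_iff x).2 h, (pos_false (neg_ne_zero.2 hx)).2 (by linarith)]; rfl

theorem three {x y z : ℝ} (hx : x ≠ 0) (hy : y ≠ 0) (hz : z ≠ 0) (h : x + y + z = 0) :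
    (pos x == pos y && pos y == pos z) = false := by
  rcases lt_or_gt_of_ne hx with h1 | h1 <;> rcases lt_or_gt_of_ne hy with h2 | h2 <;>
    rcases lt_or_gt_of_ne hz with h3 | h3 <;>
    first
    | (exfalso; linarith)
    | simp [pos, h1, h2, h3, not_lt.2 h1.le, not_lt.2 h2.le, not_lt.2 h3.le]

theorem four {x y z w : ℝ} (hx : x ≠ 0) (hy : y ≠ 0) (hz : z ≠ 0) (hw : w ≠ 0)
    (h : x + y + z = w) : (pos x == pos y && pos y == pos z && pos z != pos w) = false := by
  by_contra hc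
  rw [Bool.not_eq_false, Bool.and_eq_true, Bool.and_eq_true, beq_iff_eq, beq_iff_eq,
    bne_iff_ne] at hc
  obtain ⟨⟨h1, h2⟩, h3⟩ := hc
  rcases lt_or_gt_of_ne hz with hz' | hz'
  · rw [(pos_false hz).2 hz'] at h2 h3
    rw [h2] at h1
    have a1 := (pos_false hx).1 h1
    have a2 := (pos_false hy).1 h2
    rcases lt_or_gt_of_ne hw with hw' | hw'
    · exact h3 ((pos_false hw).2 hw').symm
    · linarith
  · rw [(pos_iff z).2 hz'] at h2 h3
    rw [h2] at h1
    have a1 := (pos_iff x).1 h1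
    have a2 := (pos_iff y).1 h2
    rcases lt_or_gt_of_ne hw with hw' | hw'
    · linarith
    · exact h3 ((pos_iff w).2 hw').symm

/-- The purely Boolean core of the parity of the crossings of a segment with a triangle. -/
theorem bool_core : ∀ D X1 X2 X3 Y1 Y2 Y3 Z1 Z2 Z3 : Bool,
    (X1 == X2 && X2 == X3 && X3 != D) = false →
    (Y1 == Y2 && Y2 == Y3 && Y3 != D) = false →
    (((X2 == Z1) == (X3 == Z2)) && ((X3 == Z2) == (X1 == Z3))) = false →
    (((Y2 == Z1) == (Y3 == Z2)) && ((Y3 == Z2) == (Y1 == Z3))) = false →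
    (((Z1 == D) == (X1 == Y3)) && ((X1 == Y3) == !(X3 == Y1))) = false →
    (((Z2 == D) == (X2 == Y1)) && ((X2 == Y1) == !(X1 == Y2))) = false →
    (((Z3 == D) == (X3 == Y2)) && ((X3 == Y2) == !(X2 == Y3))) = false →
    xor (xor ((X1 != Y1) && (Z1 != Z2)) ((X2 != Y2) && (Z2 != Z3))) ((X3 != Y3) && (Z3 != Z1)) =
      xor (X1 == X2 && X2 == X3) (Y1 == Y2 && Y2 == Y3) := by
  decide

end Vale.Agent.P305.H529
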